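import Vale.Agent.P254Z.Row.Sch
import Vale.Agent.P254Z.SF.Pair

/-!
# P254: the certificates and the pointwise row functional (definitions)
-/

open Matrix Finset

namespace Vale.Agent.P254Z.Row

open Vale.Agent.P254.S130 Vale.Agent.P254.SP620 Vale.Agent.P254.SF

/-- `φ = b (1 + b')` -/
noncomputable def phi (s : ℝ) : ℝ := b s * (1 + b1 s)

/-- `c₁ = b' + b b''` -/
noncomputable def c1 (s : ℝ) : ℝ := b1 s + b s * b2 s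

/-- `φ'` -/
noncomputable def phi1 (s : ℝ) : ℝ := b1 s ^ 2 + c1 s

/-- kernel `b'[x, y] - b''(x)` -/
noncomputable def N2 (x y : ℝ) : ℝ := dd b1 b2 x y - b2 x

/-- kernel `b[x, y] - b'(x)` -/
noncomputable def N3 (x y : ℝ) : ℝ := dd b b1 x y - b1 x

/-- kernel `φ[x, y] - b'(x)² - c₁(y)` -/
noncomputable def Nt (x y : ℝ) : ℝ := dd phi phi1 x y - b1 x ^ 2 - c1 y

/-- the multipliers of one row -/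
structure Mu where
  y1 : ℝ
  y2 : ℝ
  l : ℝ
  al : ℝ
  ka : ℝ
  F0 : ℝ
  F1 : ℝ
  k1 : ℝ
  k2 : ℝ
  cp : ℝ
  cm : ℝ
  t : ℝ
  r : ℝ
  om : ℝ
  t0 : ℝ
  t1 : ℝ

/-- the budgets shared by all rows (functions of the left eigenvalue) -/
structure Bud where
  del : ℝ → ℝ
  s2 : ℝ → ℝ
  B3 : ℝ → ℝ
  B3t : ℝ → ℝ
  Bt : ℝ → ℝ
  ep : ℝ

/-- the form of level zero -/
noncomputable def Q0 (β : Bud) (μ : Mu) (g z u e V : ℝ) : ℝ :=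
  (1 - μ.y1) * (2 * E0 z - b z ^ 2) * u ^ 2 - μ.y2 * h z ^ 2 * u ^ 2 + μ.y1 * e ^ 2
    - 2 * μ.y1 * e * (b1 z * V + (g - 1) * b2 z * u) - V ^ 2
    - g / β.del z * (μ.y1 * b2 z * e - (μ.al * c1 z - μ.cp) * u / 2) ^ 2
    - μ.y1 ^ 2 * g / β.s2 z * e ^ 2
    + μ.al * (phi z * u * V + (g * c1 z - z * phi z) * u ^ 2)
    + μ.ka * (b z * u * V - z * b z * u ^ 2) - μ.F0 * u * V - μ.F1 * (z * u * V - V ^ 2)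
    - μ.k1 * z * u ^ 2 - μ.k2 * ((z ^ 2 - g) * u ^ 2 - V ^ 2)
    + μ.l * (2 * (1 - μ.om ^ 2) * V ^ 2 + 4 * (1 + μ.om) * V * (μ.t * e + μ.r * b z * u))

/-- the form of level one -/
noncomputable def Q1 (β : Bud) (μ : Mu) (z a c e s3 st : ℝ) : ℝ :=
  (1 - β.del z - β.ep) * c ^ 2 + μ.y1 * e ^ 2 + 2 * μ.y1 * e * (b1 z * c + s3)
    - (1 - μ.y1) * (b1 z * (a + c) + s3) ^ 2 + μ.al * a * (b1 z ^ 2 * (a + c) + st)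
    + μ.ka * a * (b1 z * (a + c) + s3) + μ.cm * a * c
    - μ.l * (c + μ.t * e + μ.r * (b1 z * (a + c) + s3)) ^ 2
    + β.B3 z * s3 ^ 2 + β.B3t z * s3 * st + β.Bt z * st ^ 2

/-- the multipliers `μ` certify the row with eigenvalue `g` -/
structure RowCert (β : Bud) (μ : Mu) (g : ℝ) : Prop where
  y1 : 0 ≤ μ.y1
  y2 : 0 ≤ μ.y2
  y : 0 < μ.y1 + μ.y2
  l : 0 ≤ μ.l
  q0 : ∀ z u e V, μ.t0 * u ^ 2 ≤ Q0 β μ g z u e V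
  q1 : ∀ z a c e s3 st, μ.t1 * a ^ 2 ≤ Q1 β μ z a c e s3 st
  T : β.ep * min 1 ((g - 1) ^ 2) ≤ Real.log (μ.y1 + μ.y2) + μ.t0 + g * μ.t1

/-- the budgets are admissible -/
structure PairCert (β : Bud) : Prop where
  ep : 0 < β.ep
  del : ∀ z, 0 < β.del z
  s2 : ∀ z, 0 < β.s2 z
  pair : ∀ x y, β.B3 x * N3 x y ^ 2 + β.B3t x * N3 x y * Nt x y + β.Bt x * Nt x y ^ 2 +
    β.s2 x * N2 x y ^ 2 ≤ rho x y - 1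

/-- the scalar certificate -/
def StmtCert : Prop := ∃ β : Bud, PairCert β ∧ ∀ g, 0 ≤ g → ∃ μ : Mu, RowCert β μ g

variable {ι : Type*} [Fintype ι] [DecidableEq ι]

/-- the first chaos `∑ x_k A_k` -/
noncomputable def lz (x : ι → ℝ) (A : ι → Matrix ι ι ℝ) : Matrix ι ι ℝ := ∑ k, x k • A k

/-- a Stein term: `∑_k x_k w_k - ∂_k w_k` for `w_k = ⟨e, B a_k⟩` -/
noncomputable def zS (x : ι → ℝ) (B : Matrix ι ι ℝ) (dB : ι → Matrix ι ι ℝ) (a : ι → ι → ℝ)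
    (e : ι → ℝ) (e' : ι → ι → ℝ) : ℝ :=
  ∑ k, (x k * (e ⬝ᵥ B *ᵥ a k) - e ⬝ᵥ dB k *ᵥ a k - e' k ⬝ᵥ B *ᵥ a k)

/-- the main terms of a row -/
noncomputable def rowG (μ : Mu) (Z : Matrix ι ι ℝ) (D dB : ι → Matrix ι ι ℝ) (u e : ι → ℝ)
    (e' : ι → ι → ℝ) : ℝ :=
  (1 - μ.y1) * (u ⬝ᵥ mf (fun s => 2 * E0 s - b s ^ 2) Z *ᵥ u - ∑ k, dB k *ᵥ u ⬝ᵥ dB k *ᵥ u)
    - 2 * μ.y1 * (e ⬝ᵥ mf (fun s => h s - b s) Z *ᵥ u - ∑ k, e' k ⬝ᵥ dB k *ᵥ u)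
    + μ.y1 * (e ⬝ᵥ e + ∑ k, e' k ⬝ᵥ e' k) - μ.y2 * (mf h Z *ᵥ u ⬝ᵥ mf h Z *ᵥ u)
    - Z *ᵥ u ⬝ᵥ Z *ᵥ u + ∑ k, D k *ᵥ u ⬝ᵥ D k *ᵥ u

/-- the Poincare term for the field `v + w` with derivatives `f` (its mean is nonpositive) -/
noncomputable def poi (om : ℝ) (v w : ι → ℝ) (f : ι → ι → ℝ) : ℝ :=
  2 * (1 - om ^ 2) * (v ⬝ᵥ v) + 4 * (1 + om) * (v ⬝ᵥ w) - ∑ k, f k ⬝ᵥ f k

/-- the Poincare term of a row -/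
noncomputable def rowP (μ : Mu) (x : ι → ℝ) (A : ι → Matrix ι ι ℝ) (Z : Matrix ι ι ℝ)
    (D dB : ι → Matrix ι ι ℝ) (u e : ι → ℝ) (e' : ι → ι → ℝ) : ℝ :=
  poi μ.om ((Z - lz x A) *ᵥ u) (μ.t • e + μ.r • mf b Z *ᵥ u)
    fun k => (D k - A k) *ᵥ u + (μ.t • e' k + μ.r • dB k *ᵥ u)

/-- the terms of mean zero -/
noncomputable def rowZ (μ : Mu) (x : ι → ℝ) (A : ι → Matrix ι ι ℝ) (Z : Matrix ι ι ℝ)
    (D dB dB1 dPh : ι → Matrix ι ι ℝ) (u e : ι → ℝ) (e' : ι → ι → ℝ) : ℝ :=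
  (1 - μ.k2) * zS x (lz x A) A (fun k => A k *ᵥ u) u 0
    + (2 - μ.F1 - 2 * μ.k2) * zS x (Z - lz x A) (fun k => D k - A k) (fun k => A k *ᵥ u) u 0
    + (μ.cm - μ.cp - μ.F1 - 2 * μ.k2) * ∑ k, A k *ᵥ u ⬝ᵥ (D k - A k) *ᵥ u
    + 2 * μ.y1 * zS x (mf b1 Z) dB1 (fun k => A k *ᵥ u) e e'
    - μ.al * zS x (mf phi Z) dPh (fun k => A k *ᵥ u) u 0
    - μ.ka * zS x (mf b Z) dB (fun k => A k *ᵥ u) u 0
    - μ.F0 * (u ⬝ᵥ (Z - lz x A) *ᵥ u) - μ.k1 * (u ⬝ᵥ Z *ᵥ u)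

end Vale.Agent.P254Z.Row
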