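import Vale.Agent.P254Z.Row.Defs

/-!
# P254: the pointwise row inequality
-/

open Matrix Finset

set_option linter.unusedSectionVars false

namespace Vale.Agent.P254Z.Row

open Vale.Agent.P254.S130 Vale.Agent.P254.SP620 Vale.Agent.P254.SF

variable {ι : Type*} [Fintype ι] [DecidableEq ι]

/-- a sum of terms of level zero and of level one -/
noncomputable def TT (α : ι → ℝ) (β : ι → ι → ℝ) : ℝ := ∑ i, α i + ∑ k, ∑ i, β k i

theorem TT_add (α α' : ι → ℝ) (β β' : ι → ι → ℝ) :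
    TT α β + TT α' β' = TT (fun i => α i + α' i) fun k i => β k i + β' k i := by
  simp only [TT, Finset.sum_add_distrib]
  ring

theorem TT_sub (α α' : ι → ℝ) (β β' : ι → ι → ℝ) :
    TT α β - TT α' β' = TT (fun i => α i - α' i) fun k i => β k i - β' k i := by
  simp only [TT, Finset.sum_sub_distrib]
  ring

theorem TT_mul (c : ℝ) (α : ι → ℝ) (β : ι → ι → ℝ) :
    c * TT α β = TT (fun i => c * α i) fun k i => c * β k i := by
  simp only [TT, ← Finset.mul_sum]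
  ring

theorem TT_mono {α α' : ι → ℝ} {β β' : ι → ι → ℝ} (h0 : ∀ i, α i ≤ α' i)
    (h1 : ∀ k i, β k i ≤ β' k i) : TT α β ≤ TT α' β' :=
  add_le_add (Finset.sum_le_sum fun i _ => h0 i)
    (Finset.sum_le_sum fun k _ => Finset.sum_le_sum fun i _ => h1 k i)

theorem TT0 {α : ι → ℝ} {y : ℝ} (h : y = ∑ i, α i) : y = TT α fun _ _ => 0 := by
  simp [TT, h]

theorem TT1 {β : ι → ι → ℝ} {y : ι → ℝ} (h : ∀ k, y k = ∑ i, β k i) :
    ∑ k, y k = TT (fun _ => 0) β := by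
  simp [TT, h]

theorem young {g d : ℝ} (hg : 0 ≤ g) (hd : 0 < d) (X η : ℝ) (h : g = 0 → η = 0) :
    -(g / d * X ^ 2) ≤ -(2 * η * X) + d * (η ^ 2 / g) := by
  rcases hg.eq_or_lt with h0 | h0
  · simp [h h0.symm, ← h0]
  · have : -(2 * η * X) + d * (η ^ 2 / g) + g / d * X ^ 2 = (d * η - g * X) ^ 2 / (g * d) := by
      field_simp
      ring
    have h2 : 0 ≤ (d * η - g * X) ^ 2 / (g * d) := by positivity
    linarith

theorem h_sub_b (z : ℝ) : h z - b z = z * b1 z - b2 z := by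
  unfold b1 b2
  rw [h_eq z]
  ring

theorem dot_symm {X : Matrix ι ι ℝ} (hX : Xᵀ = X) (v w : ι → ℝ) :
    v ⬝ᵥ X *ᵥ w = X *ᵥ v ⬝ᵥ w := by
  rw [dotProduct_mulVec, ← mulVec_transpose, hX]

theorem lz_symm {A : ι → Matrix ι ι ℝ} (hA : ∀ k, (A k)ᵀ = A k) (x : ι → ℝ) :
    (lz x A)ᵀ = lz x A := by
  simp only [lz, transpose_sum, transpose_smul, hA]

theorem zS_eq (x : ι → ℝ) (A : ι → Matrix ι ι ℝ) (B : Matrix ι ι ℝ) (dB : ι → Matrix ι ι ℝ)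
    (u e : ι → ℝ) (e' : ι → ι → ℝ) : zS x B dB (fun k => A k *ᵥ u) e e' =
      e ⬝ᵥ B *ᵥ (lz x A *ᵥ u) - ∑ k, e ⬝ᵥ dB k *ᵥ (A k *ᵥ u) - ∑ k, e' k ⬝ᵥ B *ᵥ (A k *ᵥ u) := by
  simp only [zS, lz, Finset.sum_sub_distrib, Matrix.sum_mulVec, mulVec_sum, dotProduct_sum,
    smul_mulVec, mulVec_smul, dotProduct_smul, smul_eq_mul]

variable {U : Matrix ι ι ℝ} {s : ι → ℝ}

theorem comp_left (hU : Uᵀ * U = 1) (N : ℝ → ℝ → ℝ) (l : ℝ → ℝ) (X : Matrix ι ι ℝ) (w : ι → ℝ)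
    (i : ι) : (Uᵀ *ᵥ (Sch N U s X *ᵥ w)) i =
      l (s i) * (Uᵀ *ᵥ (X *ᵥ w)) i + (Uᵀ *ᵥ (Sch (fun x y => N x y - l x) U s X *ᵥ w)) i := by
  rw [Sch_left hU N l, add_mulVec, mulVec_add, Pi.add_apply, ← mulVec_mulVec w, frame_fm hU]

theorem comp_split (X Y : Matrix ι ι ℝ) (w : ι → ℝ) (i : ι) :
    (Uᵀ *ᵥ (X *ᵥ w)) i = (Uᵀ *ᵥ (Y *ᵥ w)) i + (Uᵀ *ᵥ ((X - Y) *ᵥ w)) i := by
  rw [sub_mulVec, mulVec_sub, Pi.sub_apply]
  ring

/-- one row -/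
theorem row_le {β : Bud} (hβ : PairCert β) {μ : Mu} {g : ℝ} (hμ : RowCert β μ g)
    {A : ι → Matrix ι ι ℝ} (hA : ∀ k, (A k)ᵀ = A k) {u : ι → ℝ} (hu : u ⬝ᵥ u = 1)
    (hg : ∑ k, A k *ᵥ (A k *ᵥ u) = g • u) (hg0 : 0 ≤ g) (hz : g = 0 → ∀ k, A k *ᵥ u = 0)
    (x : ι → ℝ) {Z : Matrix ι ι ℝ} (hZ : Dec Z U s) {D : ι → Matrix ι ι ℝ}
    (hD : ∀ k, (D k)ᵀ = D k) (e : ι → ℝ) (e' : ι → ι → ℝ) :
    μ.t0 + g * μ.t1 + TT
      (fun i => -(β.del (s i) * ((Uᵀ *ᵥ ∑ k, (D k - A k) *ᵥ (A k *ᵥ u)) i ^ 2 / g))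
        - β.s2 (s i) * ((Uᵀ *ᵥ ∑ k, Sch N2 U s (D k) *ᵥ (A k *ᵥ u)) i ^ 2 / g))
      (fun k i => (β.del (s i) + β.ep) *
          ((Uᵀ *ᵥ ((D k - A k) *ᵥ u)) i * (Uᵀ *ᵥ ((D k - A k) *ᵥ u)) i)
        - β.B3 (s i) * ((Uᵀ *ᵥ (Sch N3 U s (D k) *ᵥ u)) i * (Uᵀ *ᵥ (Sch N3 U s (D k) *ᵥ u)) i)
        - β.B3t (s i) * ((Uᵀ *ᵥ (Sch N3 U s (D k) *ᵥ u)) i * (Uᵀ *ᵥ (Sch Nt U s (D k) *ᵥ u)) i)
        - β.Bt (s i) * ((Uᵀ *ᵥ (Sch Nt U s (D k) *ᵥ u)) i * (Uᵀ *ᵥ (Sch Nt U s (D k) *ᵥ u)) i)) ≤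
    rowG μ Z D (fun k => DK b b1 U s (D k)) u e e' +
      rowZ μ x A Z D (fun k => DK b b1 U s (D k)) (fun k => DK b1 b2 U s (D k))
        (fun k => DK phi phi1 U s (D k)) u e e' +
      μ.l * rowP μ x A Z D (fun k => DK b b1 U s (D k)) u e e' := by
  have hU := hZ.orth
  have hZf : Z = fm (fun y => y) U s := hZ.eq
  -- components
  obtain ⟨ut, hut⟩ : ∃ f : ι → ℝ, ∀ i, (Uᵀ *ᵥ u) i = f i := ⟨_, fun _ => rfl⟩
  obtain ⟨et, het⟩ : ∃ f : ι → ℝ, ∀ i, (Uᵀ *ᵥ e) i = f i := ⟨_, fun _ => rfl⟩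
  obtain ⟨ep, hep⟩ : ∃ f : ι → ι → ℝ, ∀ k i, (Uᵀ *ᵥ e' k) i = f k i := ⟨_, fun _ _ => rfl⟩
  obtain ⟨a, ha⟩ : ∃ f : ι → ι → ℝ, ∀ k i, (Uᵀ *ᵥ (A k *ᵥ u)) i = f k i := ⟨_, fun _ _ => rfl⟩
  obtain ⟨c, hc⟩ : ∃ f : ι → ι → ℝ, ∀ k i, (Uᵀ *ᵥ ((D k - A k) *ᵥ u)) i = f k i :=
    ⟨_, fun _ _ => rfl⟩
  obtain ⟨V, hV⟩ : ∃ f : ι → ℝ, ∀ i, (Uᵀ *ᵥ ((Z - lz x A) *ᵥ u)) i = f i := ⟨_, fun _ => rfl⟩
  obtain ⟨s3, hs3⟩ : ∃ f : ι → ι → ℝ, ∀ k i, (Uᵀ *ᵥ (Sch N3 U s (D k) *ᵥ u)) i = f k i :=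
    ⟨_, fun _ _ => rfl⟩
  obtain ⟨st, hst⟩ : ∃ f : ι → ι → ℝ, ∀ k i, (Uᵀ *ᵥ (Sch Nt U s (D k) *ᵥ u)) i = f k i :=
    ⟨_, fun _ _ => rfl⟩
  obtain ⟨η, hη⟩ : ∃ f : ι → ℝ, ∀ i, (Uᵀ *ᵥ ∑ k, (D k - A k) *ᵥ (A k *ᵥ u)) i = f i :=
    ⟨_, fun _ => rfl⟩
  obtain ⟨s1, hs1⟩ : ∃ f : ι → ℝ, ∀ i, (Uᵀ *ᵥ ∑ k, Sch N2 U s (D k) *ᵥ (A k *ᵥ u)) i = f i :=
    ⟨_, fun _ => rfl⟩
  have cZ : ∀ i, (Uᵀ *ᵥ (Z *ᵥ u)) i = s i * ut i := fun i => by
    rw [← hut]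
    conv_lhs => rw [hZf]
    exact frame_fm hU _ _ i
  have cL : ∀ i, (Uᵀ *ᵥ (lz x A *ᵥ u)) i = s i * ut i - V i := fun i => by
    rw [← cZ, comp_split Z (lz x A), hV]
    ring
  have cD : ∀ k i, (Uᵀ *ᵥ (D k *ᵥ u)) i = a k i + c k i := fun k i => by
    rw [comp_split (D k) (A k), ha, hc]
  have cB : ∀ k i, (Uᵀ *ᵥ (DK b b1 U s (D k) *ᵥ u)) i = b1 (s i) * (a k i + c k i) + s3 k i :=
    fun k i => by rw [DK_eq, comp_left hU _ b1, cD, ← hs3]; rfl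
  have cf : ∀ (f : ℝ → ℝ) (w : ι → ℝ) i, (Uᵀ *ᵥ (mf f Z *ᵥ w)) i = f (s i) * (Uᵀ *ᵥ w) i :=
    fun f w i => by rw [hZ.mf, frame_fm hU]
  have cG : ∀ i, ∑ k, (Uᵀ *ᵥ (D k *ᵥ (A k *ᵥ u))) i = g * ut i + η i := fun i => by
    simp only [fun k => comp_split (U := U) (D k) (A k) (A k *ᵥ u) i, Finset.sum_add_distrib]
    rw [← hη, ← hut, mulVec_sum, Finset.sum_apply, ← Finset.sum_apply, ← mulVec_sum, hg,
      mulVec_smul, Pi.smul_apply, smul_eq_mul]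
  have hχ : ∀ k, (D k - A k)ᵀ = D k - A k := fun k => by rw [transpose_sub, hD, hA]
  -- the relations
  have r1 : ∑ i, ut i * ut i = 1 := by
    rw [← hu, dot_frame hU]
    simp only [hut]
  have r2 : ∑ k, ∑ i, a k i * a k i = g := by
    have : ∀ k, ∑ i, a k i * a k i = u ⬝ᵥ A k *ᵥ (A k *ᵥ u) := fun k => by
      rw [dot_symm (hA k), dot_frame hU]
      simp only [ha]
    simp only [this]
    rw [← dotProduct_sum, hg, dotProduct_smul, hu, smul_eq_mul, mul_one]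
  have t8 : ∑ k, A k *ᵥ u ⬝ᵥ (D k - A k) *ᵥ u = TT (fun _ => 0) fun k i => a k i * c k i :=
    TT1 fun k => by rw [dot_frame hU]; simp only [ha, hc]
  have t8' : ∑ k, u ⬝ᵥ (D k - A k) *ᵥ (A k *ᵥ u) = TT (fun _ => 0) fun k i => a k i * c k i :=
    TT1 fun k => by rw [dot_symm (hχ k), dotProduct_comm, dot_frame hU]; simp only [ha, hc]
  have r3 : TT (fun i => -(ut i * η i)) (fun k i => a k i * c k i) = 0 := by
    have : ∑ i, ut i * η i = ∑ k, u ⬝ᵥ (D k - A k) *ᵥ (A k *ᵥ u) := by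
      rw [← dotProduct_sum, dot_frame hU]
      simp only [hut, hη]
    rw [t8'] at this
    simp only [TT, Finset.sum_neg_distrib, this]
    simp
  have r4 : TT (fun i => g * (ut i * ut i)) (fun k i => -(a k i * a k i)) = 0 := by
    simp only [TT, Finset.sum_neg_distrib, ← Finset.mul_sum, r1, r2]
    ring
  have r5 : μ.t0 + g * μ.t1 =
      TT (fun i => μ.t0 * (ut i * ut i)) fun k i => μ.t1 * (a k i * a k i) := by
    simp only [TT, ← Finset.mul_sum, r1, r2]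
    ring
  -- the terms
  have d0 : ∀ v w : ι → ℝ, v ⬝ᵥ w =
      TT (fun i => (Uᵀ *ᵥ v) i * (Uᵀ *ᵥ w) i) fun _ _ => 0 := fun v w => TT0 (dot_frame hU v w)
  have d1 : ∀ v w : ι → ι → ℝ, ∑ k, v k ⬝ᵥ w k =
      TT (fun _ => 0) fun k i => (Uᵀ *ᵥ v k) i * (Uᵀ *ᵥ w k) i :=
    fun v w => TT1 fun k => dot_frame hU _ _
  have z0 : ∀ B : Matrix ι ι ℝ, ∑ k, (0 : ι → ι → ℝ) k ⬝ᵥ B *ᵥ (A k *ᵥ u) =
      TT (ι := ι) (fun _ => 0) fun _ _ => 0 := fun B => by simp [TT]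
  have z7 : u ⬝ᵥ lz x A *ᵥ (lz x A *ᵥ u) =
      TT (fun i => (s i * ut i - V i) * (s i * ut i - V i)) fun _ _ => 0 := by
    rw [dot_symm (lz_symm hA x), d0]
    simp only [cL]
  have z7' : ∑ k, u ⬝ᵥ A k *ᵥ (A k *ᵥ u) = TT (fun i => g * (ut i * ut i)) fun _ _ => 0 := by
    refine TT0 ?_
    rw [← dotProduct_sum, hg, dotProduct_smul, hu, ← Finset.mul_sum, r1, smul_eq_mul]
  have z5 : u ⬝ᵥ (Z - lz x A) *ᵥ (lz x A *ᵥ u) =
      TT (fun i => V i * (s i * ut i - V i)) fun _ _ => 0 := by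
    rw [dot_symm (by rw [transpose_sub, lz_symm hA x, hZ.symm]), d0]
    simp only [cL, hV]
  have z1 : ∑ k, e ⬝ᵥ DK b1 b2 U s (D k) *ᵥ (A k *ᵥ u) =
      TT (fun i => et i * (b2 (s i) * (g * ut i + η i) + s1 i)) fun _ _ => 0 := by
    refine TT0 ?_
    rw [← dotProduct_sum, dot_frame hU]
    refine Finset.sum_congr rfl fun i _ => ?_
    rw [het, ← cG, ← hs1, mulVec_sum, mulVec_sum, Finset.sum_apply, Finset.sum_apply]
    congr 1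
    rw [Finset.mul_sum, ← Finset.sum_add_distrib]
    exact Finset.sum_congr rfl fun k _ => comp_left hU _ b2 _ _ i
  have z2 : ∑ k, u ⬝ᵥ DK phi phi1 U s (D k) *ᵥ (A k *ᵥ u) =
      TT (fun i => c1 (s i) * (ut i * (g * ut i + η i)))
        fun k i => a k i * (b1 (s i) ^ 2 * (a k i + c k i) + st k i) := by
    have : ∀ k, u ⬝ᵥ DK phi phi1 U s (D k) *ᵥ (A k *ᵥ u) =
        ∑ i, c1 (s i) * (ut i * (Uᵀ *ᵥ (D k *ᵥ (A k *ᵥ u))) i) +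
          ∑ i, a k i * (b1 (s i) ^ 2 * (a k i + c k i) + st k i) := fun k => by
      rw [dot_symm (DK_symm' hU _ _ (hD k)), dotProduct_comm, DK_eq,
        Sch_left_right hU _ (fun y => b1 y ^ 2) c1, add_mulVec, add_mulVec, dotProduct_add,
        dotProduct_add, ← mulVec_mulVec u, ← mulVec_mulVec u, dot_symm (hD k) _ (fm c1 U s *ᵥ u),
        dot_fm hU, dot_fm hU, dot_frame hU (A k *ᵥ u)]
      change _ + ∑ i, (Uᵀ *ᵥ (A k *ᵥ u)) i * (Uᵀ *ᵥ (Sch Nt U s (D k) *ᵥ u)) i = _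
      simp only [ha, cD, hut, hst, ← Finset.sum_add_distrib]
      exact Finset.sum_congr rfl fun i _ => by ring
    simp only [this, Finset.sum_add_distrib, TT]
    rw [Finset.sum_comm]
    simp only [← Finset.mul_sum, cG]
  have z3 : ∑ k, u ⬝ᵥ DK b b1 U s (D k) *ᵥ (A k *ᵥ u) =
      TT (fun _ => 0) fun k i => a k i * (b1 (s i) * (a k i + c k i) + s3 k i) :=
    TT1 fun k => by
      rw [dot_symm (DK_symm' hU _ _ (hD k)), dotProduct_comm, dot_frame hU]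
      simp only [ha, cB]
  have hR : ∀ R : ℝ, R = R + TT (fun i => g * (ut i * ut i)) (fun k i => -(a k i * a k i))
      + μ.cp * TT (fun i => -(ut i * η i)) (fun k i => a k i * c k i) := fun R => by
    rw [r3, r4]
    ring
  rw [hR (_ + μ.l * _), r5, rowG, rowZ, rowP, poi]
  simp only [zS_eq, z0, z7, z7', z5, z1, z2, z3, t8, t8']
  simp only [d1]
  simp only [d0, TT_mul, TT_add, TT_sub]
  simp only [mulVec_add, mulVec_smul, Pi.add_apply, Pi.smul_apply, smul_eq_mul, cf, cB, cD, cL, cZ,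
    hut, het, hep, ha, hc, hV, hs3, hst, hη, hs1]
  refine TT_mono (fun i => ?_) fun k i => ?_
  · have q := hμ.q0 (s i) (ut i) (et i) (V i)
    have y1 := young hg0 (hβ.del (s i))
      (μ.y1 * b2 (s i) * et i - (μ.al * c1 (s i) - μ.cp) * ut i / 2) (η i) fun h0 => by
        rw [← hη]
        simp [hz h0]
    have y2 := young hg0 (hβ.s2 (s i)) (μ.y1 * et i) (s1 i) fun h0 => by
      rw [← hs1]
      simp [hz h0]
    have e1 : μ.y1 ^ 2 * g / β.s2 (s i) * et i ^ 2 = g / β.s2 (s i) * (μ.y1 * et i) ^ 2 := by ring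
    rw [Q0, e1] at q
    rw [h_sub_b]
    linarith
  · have q := hμ.q1 (s i) (a k i) (c k i) (ep k i) (s3 k i) (st k i)
    rw [Q1] at q
    linarith

/-- **the pointwise inequality** -/
theorem row_pt {β : Bud} (hβ : PairCert β) {μ : ι → Mu} {W : Matrix ι ι ℝ} {g : ι → ℝ}
    {A : ι → Matrix ι ι ℝ} (hA : ∀ k, (A k)ᵀ = A k) (hW : Dec (∑ k, A k * A k) W g)
    (hμ : ∀ j, RowCert β (μ j) (g j)) (x : ι → ℝ) {Z U : Matrix ι ι ℝ} {s : ι → ℝ}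
    (hZ : Dec Z U s) {D dB dB1 dPh : ι → Matrix ι ι ℝ} (hD : ∀ k, (D k)ᵀ = D k)
    (h0 : ∀ k, dB k = DK b b1 U s (D k)) (h1 : ∀ k, dB1 k = DK b1 b2 U s (D k))
    (h2 : ∀ k, dPh k = DK phi phi1 U s (D k)) (e : ι → ι → ℝ) (e' : ι → ι → ι → ℝ) :
    ∑ j, ((μ j).t0 + g j * (μ j).t1) + β.ep * ∑ k, fr (D k - A k) ≤
      ∑ j, (rowG (μ j) Z D dB (col W j) (e j) (e' j) +
        rowZ (μ j) x A Z D dB dB1 dPh (col W j) (e j) (e' j) +
        (μ j).l * rowP (μ j) x A Z D dB (col W j) (e j) (e' j)) +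
      ∑ k, ∑ i, ∑ j, (rho (s i) (s j) - 1) * (Uᵀ * D k * U) i j ^ 2 := by
  have hU := hZ.orth
  obtain rfl : dB = fun k => DK b b1 U s (D k) := funext h0
  obtain rfl : dB1 = fun k => DK b1 b2 U s (D k) := funext h1
  obtain rfl : dPh = fun k => DK phi phi1 U s (D k) := funext h2
  have h := Finset.sum_le_sum fun j (_ : j ∈ univ) => row_le hβ (hμ j) hA
    (by rw [col_dot hW.orth, if_pos rfl]) (gam_col hW j) (gam_nonneg hA hW j) (gam_zero hA hW) x hZ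
    hD (e j) (e' j)
  rw [Finset.sum_add_distrib] at h
  refine le_trans ?_ (add_le_add h le_rfl)
  rw [add_assoc]
  refine add_le_add le_rfl ?_
  simp only [TT, Finset.sum_add_distrib (s := (univ : Finset ι))]
  rw [Finset.sum_comm, Finset.sum_comm (f := fun j k => ∑ i, _)]
  conv_rhs => enter [1, 2, 2, k]; rw [Finset.sum_comm]
  simp only [Finset.sum_sub_distrib, Finset.sum_neg_distrib, ← Finset.mul_sum,
    sum_rows hU hW.orth, Sch_frame hU, fr_frame hU]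
  have b1 := Finset.sum_le_sum fun i (_ : i ∈ univ) =>
    mul_le_mul_of_nonneg_left (bessel hU hA hW (fun k => D k - A k) i) (hβ.del (s i)).le
  have b2 := Finset.sum_le_sum fun i (_ : i ∈ univ) =>
    mul_le_mul_of_nonneg_left (bessel hU hA hW (fun k => Sch N2 U s (D k)) i) (hβ.s2 (s i)).le
  have b3 := Finset.sum_le_sum fun k (_ : k ∈ univ) => Finset.sum_le_sum fun i (_ : i ∈ univ) =>
    Finset.sum_le_sum fun j (_ : j ∈ univ) =>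
      mul_le_mul_of_nonneg_right (hβ.pair (s i) (s j)) (sq_nonneg ((Uᵀ * D k * U) i j))
  simp only [Sch_frame hU] at b2
  simp only [Finset.mul_sum] at b1 b2 ⊢
  rw [Finset.sum_comm (f := fun i k => ∑ j, _)] at b1 b2
  have e1 : ∑ k, ∑ i, ∑ j, (β.del (s i) + β.ep) *
      ((Uᵀ * (D k - A k) * U) i j * (Uᵀ * (D k - A k) * U) i j) =
      ∑ k, ∑ i, ∑ j, β.del (s i) * (Uᵀ * (D k - A k) * U) i j ^ 2 +
        ∑ k, ∑ i, ∑ j, β.ep * (Uᵀ * (D k - A k) * U) i j ^ 2 := by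
    simp only [← Finset.sum_add_distrib]
    exact Finset.sum_congr rfl fun k _ => Finset.sum_congr rfl fun i _ =>
      Finset.sum_congr rfl fun j _ => by ring
  have e2 : ∑ k, ∑ i, ∑ j, (β.B3 (s i) * N3 (s i) (s j) ^ 2 +
      β.B3t (s i) * N3 (s i) (s j) * Nt (s i) (s j) + β.Bt (s i) * Nt (s i) (s j) ^ 2 +
      β.s2 (s i) * N2 (s i) (s j) ^ 2) * (Uᵀ * D k * U) i j ^ 2 =
      ∑ k, ∑ i, ∑ j, β.B3 (s i) * (N3 (s i) (s j) * (Uᵀ * D k * U) i j *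
          (N3 (s i) (s j) * (Uᵀ * D k * U) i j)) +
        ∑ k, ∑ i, ∑ j, β.B3t (s i) * (N3 (s i) (s j) * (Uᵀ * D k * U) i j *
          (Nt (s i) (s j) * (Uᵀ * D k * U) i j)) +
        ∑ k, ∑ i, ∑ j, β.Bt (s i) * (Nt (s i) (s j) * (Uᵀ * D k * U) i j *
          (Nt (s i) (s j) * (Uᵀ * D k * U) i j)) +
        ∑ k, ∑ i, ∑ j, β.s2 (s i) * (N2 (s i) (s j) * (Uᵀ * D k * U) i j) ^ 2 := by
    simp only [← Finset.sum_add_distrib]
    exact Finset.sum_congr rfl fun k _ => Finset.sum_congr rfl fun i _ =>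
      Finset.sum_congr rfl fun j _ => by ring
  rw [e2] at b3
  rw [e1]
  linarith

theorem b1_cont : Continuous b1 :=
  continuous_iff_continuousAt.2 fun z => (b1_hasDerivAt z).continuousAt

theorem b2_cont : Continuous b2 :=
  continuous_iff_continuousAt.2 fun z => (b2_hasDerivAt z).continuousAt

theorem phi_hasDerivAt (z : ℝ) : HasDerivAt phi (phi1 z) z := by
  refine ((b_hasDerivAt z).mul ((b1_hasDerivAt z).const_add 1)).congr_deriv ?_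
  unfold phi1 c1
  ring

theorem phi1_cont : Continuous phi1 :=
  (b1_cont.pow 2).add (b1_cont.add ((continuous_iff_continuousAt.2 fun z =>
    (b_hasDerivAt z).continuousAt).mul b2_cont))

theorem min_sum_le (s : Finset ι) {f : ι → ℝ} (hf : ∀ j, 0 ≤ f j) :
    min 1 (∑ j ∈ s, f j) ≤ ∑ j ∈ s, min 1 (f j) := by
  by_cases h : ∃ j ∈ s, 1 ≤ f j
  · obtain ⟨j, hj, h1⟩ := h
    refine (min_le_left _ _).trans ?_
    have := Finset.single_le_sum (f := fun j => min 1 (f j))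
      (fun j _ => le_min zero_le_one (hf j)) hj
    rwa [min_eq_left h1] at this
  · push Not at h
    exact (min_le_right _ _).trans (Finset.sum_le_sum fun j hj => le_min (h j hj).le le_rfl)

theorem sum_min {G W : Matrix ι ι ℝ} {g : ι → ℝ} (hW : Dec G W g) :
    min 1 (fr (G - 1)) ≤ ∑ j, min 1 ((g j - 1) ^ 2) := by
  refine le_of_eq_of_le ?_ (min_sum_le univ fun j => sq_nonneg _)
  rw [fr_frame hW.orth]
  congr 1
  refine Finset.sum_congr rfl fun i _ => ?_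
  simp only [frame_sub, Matrix.mul_one, hW.orth]
  rw [hW.eq, unframe hW.orth, Finset.sum_eq_single i]
  · simp
  · intro j _ hj
    simp [diagonal_apply, one_apply, hj.symm]
  · simp

end Vale.Agent.P254Z.Row
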