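import Vale.Agent.P254Z.Row.Sch
import Vale.Agent.P254Z.SF.Pair

/-!
# P254: the pointwise energy inequality for the test field `b(Z)²`
-/

open Matrix Finset

set_option linter.unusedSectionVars false

namespace Vale.Agent.P254Z.Row

open Vale.Agent.P254.S130 Vale.Agent.P254.SP620 Vale.Agent.P254.SF

variable {ι : Type*} [Fintype ι] [DecidableEq ι]

theorem dd_sq (f f' : ℝ → ℝ) (x y : ℝ) :
    dd (fun s => f s ^ 2) (fun s => 2 * f s * f' s) x y = (f x + f y) * dd f f' x y := by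
  unfold dd
  split_ifs with h
  · subst h
    ring
  · ring

theorem tA_split {x y : ℝ} (hx : 0 < x) (hy : 0 < y) :
    tA x y = b (F x) + y * (dd b b1 (F x) (F y) * ze x y) := by
  rw [← dd_chain b b1 hx hy, tA]
  unfold dd
  split_ifs with h
  · subst h
    have h1 := (kap_pos (F x)).ne'
    have h2 := hx.ne'
    simp only [tE1, F1, b1]
    field_simp
    ring
  · have h1 : x - y ≠ 0 := sub_ne_zero.2 h
    have e1 : tE x = x * b (F x) := by rw [tE, ← h_mul_b, h_F hx]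
    have e2 : tE y = y * b (F y) := by rw [tE, ← h_mul_b, h_F hy]
    rw [e1, e2]
    field_simp
    ring

/-- the scalar inequality behind the energy inequality -/
theorem energy_six {x y w : ℝ} (hx : 0 < x) (hy : 0 < y) (hw : 0 < w) :
    2 * (rho (F x) (F y) * ze x y ^ 2 + rho (F x) (F w) * ze x w ^ 2 +
      rho (F y) (F w) * ze y w ^ 2) ≤
    2 * (b (F x) ^ 2 / (y * w) + b (F y) ^ 2 / (x * w) + b (F w) ^ 2 / (x * y)) +
      2 * ((b (F x) + b (F y)) * (dd b b1 (F x) (F y) * ze x y) / w +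
        (b (F x) + b (F w)) * (dd b b1 (F x) (F w) * ze x w) / y +
        (b (F y) + b (F w)) * (dd b b1 (F y) (F w) * ze y w) / x) +
      2 * ((dd b b1 (F x) (F y) * ze x y) ^ 2 + (dd b b1 (F x) (F w) * ze x w) ^ 2 +
        (dd b b1 (F y) (F w) * ze y w) ^ 2) := by
  have h := triple_rho hx hy hw
  rw [tA_split hx hy, tA_split hx hw, tA_split hy hx, tA_split hy hw, tA_split hw hx,
    tA_split hw hy, dd_comm b b1 (F y) (F x), dd_comm b b1 (F w) (F x), dd_comm b b1 (F w) (F y),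
    ze_comm y x, ze_comm w x, ze_comm w y] at h
  set p := dd b b1 (F x) (F y) * ze x y
  set q := dd b b1 (F x) (F w) * ze x w
  set r := dd b b1 (F y) (F w) * ze y w
  have e : (b (F x) + y * p) * (b (F x) + w * q) / (y * w) +
      (b (F y) + x * p) * (b (F y) + w * r) / (x * w) +
      (b (F w) + x * q) * (b (F w) + y * r) / (x * y) =
      (b (F x) ^ 2 / (y * w) + b (F y) ^ 2 / (x * w) + b (F w) ^ 2 / (x * y)) +
      ((b (F x) + b (F y)) * p / w + (b (F x) + b (F w)) * q / y + (b (F y) + b (F w)) * r / x) +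
      (p * q + p * r + q * r) := by
    field_simp
    ring
  rw [e] at h
  nlinarith [sq_nonneg (p - q), sq_nonneg (p - r), sq_nonneg (q - r)]

theorem sum_swap23 (f : ι → ι → ι → ℝ) : ∑ i, ∑ j, ∑ k, f i j k = ∑ i, ∑ j, ∑ k, f i k j :=
  Finset.sum_congr rfl fun _ _ => Finset.sum_comm

theorem sum_in (f : ι → ι → ι → ℝ) : ∑ k, ∑ i, ∑ j, f k i j = ∑ i, ∑ j, ∑ k, f k i j := by
  rw [Finset.sum_comm]
  exact Finset.sum_congr rfl fun _ _ => Finset.sum_comm

theorem sym_le {Φ : ι → ι → ι → ℝ} (h1 : ∀ i j k, Φ i j k = Φ j i k)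
    (h2 : ∀ i j k, Φ i j k = Φ i k j) {w w' : ι → ι → ι → ℝ}
    (h : ∀ i j k, w i j k + w j k i + w k i j + (w i k j + w k j i + w j i k) ≤
      w' i j k + w' j k i + w' k i j + (w' i k j + w' k j i + w' j i k)) :
    ∑ i, ∑ j, ∑ k, Φ i j k ^ 2 * w i j k ≤ ∑ i, ∑ j, ∑ k, Φ i j k ^ 2 * w' i j k := by
  have hc : ∀ i j k, Φ j k i = Φ i j k := fun i j k => by rw [h2 j k i, h1 j i k]
  have key : ∀ v : ι → ι → ι → ℝ, 6 * ∑ i, ∑ j, ∑ k, Φ i j k ^ 2 * v i j k =
      ∑ i, ∑ j, ∑ k, Φ i j k ^ 2 *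
        (v i j k + v j k i + v k i j + (v i k j + v k j i + v j i k)) := by
    intro v
    have r : ∀ v : ι → ι → ι → ℝ, ∑ i, ∑ j, ∑ k, Φ i j k ^ 2 * v i j k =
        ∑ i, ∑ j, ∑ k, Φ i j k ^ 2 * v j k i := by
      intro v
      rw [sum_rot (fun i j k => Φ i j k ^ 2 * v i j k)]
      simp only [hc]
    have t : ∑ i, ∑ j, ∑ k, Φ i j k ^ 2 * v i j k = ∑ i, ∑ j, ∑ k, Φ i j k ^ 2 * v i k j := by
      rw [sum_swap23 (fun i j k => Φ i j k ^ 2 * v i j k)]
      simp only [← h2]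
    have r1 := r v
    have r2 := r fun i j k => v j k i
    have r3 := r fun i j k => v i k j
    have r4 := r fun i j k => v j i k
    simp only [mul_add, Finset.sum_add_distrib]
    linarith
  have := Finset.sum_le_sum fun i (_ : i ∈ Finset.univ) => Finset.sum_le_sum
    fun j (_ : j ∈ Finset.univ) => Finset.sum_le_sum fun k (_ : k ∈ Finset.univ) =>
      mul_le_mul_of_nonneg_left (h i j k) (sq_nonneg (Φ i j k))
  rw [← key, ← key] at this
  linarith

/-- **Energy inequality.** `M = U diag(m) Uᵀ` positive definite, `P` a totally symmetric tensor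
(the derivative of `M`), `D k` the derivative of `Z = F(M)`. -/
theorem energy_ge {M U : Matrix ι ι ℝ} {m : ι → ℝ} (hd : Dec M U m) (hm : ∀ i, 0 < m i)
    {P : ι → Matrix ι ι ℝ} (h1 : ∀ i j k, P i j k = P j i k) (h2 : ∀ i j k, P i j k = P i k j) :
    ∑ k, ∑ i, ∑ j, rho (F (m i)) (F (m j)) * (Uᵀ * DK F F1 U m (P k) * U) i j ^ 2 ≤
      (fm (fun s => b s ^ 2) U (fun i => F (m i)) *
          of fun i j => (M⁻¹ * P i * (M⁻¹ * P j)).trace).trace +
        ∑ p, ∑ q, M⁻¹ p q * (DK (fun s => b s ^ 2) (fun s => 2 * b s * b1 s) U (fun i => F (m i))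
          (DK F F1 U m (P p)) * P q).trace +
        ∑ k, fr (DK b b1 U (fun i => F (m i)) (DK F F1 U m (P k))) := by
  have hU := hd.orth
  have hU' : U * Uᵀ = 1 := hd.orth'
  have hinv : M⁻¹ = U * diagonal (fun i => 1 / m i) * Uᵀ := by
    apply inv_eq_right_inv
    rw [hd.eq]
    calc U * diagonal m * Uᵀ * (U * diagonal (fun i => 1 / m i) * Uᵀ) =
          U * (diagonal m * (Uᵀ * U) * diagonal (fun i => 1 / m i)) * Uᵀ := by
          simp only [Matrix.mul_assoc]
      _ = 1 := by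
          rw [hU, Matrix.mul_one, diagonal_mul_diagonal]
          have : (fun i => m i * (1 / m i)) = fun _ => (1 : ℝ) :=
            funext fun i => mul_one_div_cancel (hm i).ne'
          rw [this, diagonal_one, Matrix.mul_one, hU']
  set E : ι → Matrix ι ι ℝ := fun k => ∑ a, U a k • P a with hE
  have hDs : ∀ a, (P a)ᵀ = P a := fun a => by
    ext i j
    exact h2 a j i
  have hEs : ∀ k, (E k)ᵀ = E k := fun k => by
    rw [hE]
    simp only [transpose_sum, transpose_smul, hDs]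
  set Φ : ι → ι → ι → ℝ := fun k i j => (Uᵀ * E k * U) i j with hΦ
  have hΦ0 : ∀ k i j, Φ k i j = ∑ a, U a k * (Uᵀ * P a * U) i j := by
    intro k i j
    simp only [hΦ, hE]
    rw [Matrix.mul_sum, Matrix.sum_mul, Matrix.sum_apply]
    exact Finset.sum_congr rfl fun a _ => frame_smul _ _ _ _
  have hΦe : ∀ k i j, Φ k i j = ∑ a, ∑ p, ∑ q, U a k * U p i * U q j * P a p q := by
    intro k i j
    rw [hΦ0]
    refine Finset.sum_congr rfl fun a _ => ?_
    rw [Matrix.mul_apply, Finset.sum_comm, Finset.mul_sum]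
    refine Finset.sum_congr rfl fun q _ => ?_
    rw [Matrix.mul_apply, Finset.sum_mul, Finset.mul_sum]
    refine Finset.sum_congr rfl fun p _ => ?_
    rw [Matrix.transpose_apply]
    ring
  have hΦ1 : ∀ k i j, Φ k i j = Φ i k j := by
    intro k i j
    rw [hΦe, hΦe, Finset.sum_comm]
    refine Finset.sum_congr rfl fun a _ => Finset.sum_congr rfl fun p _ =>
      Finset.sum_congr rfl fun q _ => ?_
    rw [h1 p a q]
    ring
  have hΦ2 : ∀ k i j, Φ k i j = Φ k j i := fun k i j => (frame_symm (hEs k) i j).symm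
  have hrot : ∀ N : ι → ι → ℝ, ∑ k, ∑ i, ∑ j, N i j * (Uᵀ * P k * U) i j ^ 2 =
      ∑ k, ∑ i, ∑ j, Φ k i j ^ 2 * N i j := by
    intro N
    have e1 : ∀ i j, ∑ k, Φ k i j ^ 2 = ∑ a, (Uᵀ * P a * U) i j ^ 2 := by
      intro i j
      rw [← sum_sq_orth hU' (fun a => (Uᵀ * P a * U) i j)]
      simp only [hΦ0]
    rw [sum_in, sum_in (fun k i j => Φ k i j ^ 2 * N i j)]
    refine Finset.sum_congr rfl fun i _ => Finset.sum_congr rfl fun j _ => ?_
    rw [← Finset.mul_sum, ← Finset.sum_mul, e1, mul_comm]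
  have hD : ∀ k i j, (Uᵀ * DK F F1 U m (P k) * U) i j = ze (m i) (m j) * (Uᵀ * P k * U) i j :=
    fun k i j => DK_frame hU _ _ _ _ _ _
  have t0 : ∑ k, ∑ i, ∑ j, rho (F (m i)) (F (m j)) * (Uᵀ * DK F F1 U m (P k) * U) i j ^ 2 =
      ∑ k, ∑ i, ∑ j, Φ k i j ^ 2 * (rho (F (m i)) (F (m j)) * ze (m i) (m j) ^ 2) := by
    rw [← hrot]
    simp only [hD, mul_pow, mul_assoc]
  have t1 : (fm (fun s => b s ^ 2) U (fun i => F (m i)) *
        of fun i j => (M⁻¹ * P i * (M⁻¹ * P j)).trace).trace =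
      ∑ k, ∑ i, ∑ j, Φ k i j ^ 2 * (b (F (m k)) ^ 2 / (m i * m j)) := by
    have e1 := quad_sum (trB M⁻¹ M⁻¹) U (fun i => b (F (m i)) ^ 2) P
    have e2 : ∀ i j, trB M⁻¹ M⁻¹ (P i) (P j) = (M⁻¹ * P j * (M⁻¹ * P i)).trace := by
      intro i j
      rw [trB_apply, trace_mul_comm (M⁻¹ * P j), Matrix.mul_assoc (M⁻¹ * P i)]
    simp only [e2] at e1
    refine Eq.trans ?_ (e1.trans ?_)
    · rfl
    · refine Finset.sum_congr rfl fun k _ => ?_
      rw [hinv, trB_diag _ _ (hEs k), Finset.mul_sum]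
      refine Finset.sum_congr rfl fun i _ => ?_
      rw [Finset.mul_sum]
      refine Finset.sum_congr rfl fun j _ => ?_
      change b (F (m k)) ^ 2 * (1 / m i * (1 / m j) * Φ k i j ^ 2) = _
      have := (hm i).ne'
      have := (hm j).ne'
      field_simp
  have t2 : ∑ p, ∑ q, M⁻¹ p q * (DK (fun s => b s ^ 2) (fun s => 2 * b s * b1 s) U
        (fun i => F (m i)) (DK F F1 U m (P p)) * P q).trace =
      ∑ k, ∑ i, ∑ j, Φ k i j ^ 2 * ((b (F (m i)) + b (F (m j))) *
        (dd b b1 (F (m i)) (F (m j)) * ze (m i) (m j)) / m k) := by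
    set L := (SchL (dd (fun s => b s ^ 2) fun s => 2 * b s * b1 s) U fun i => F (m i)).comp
      (SchL (dd F F1) U m) with hL
    have e1 := quad_sum ((trB (1 : Matrix ι ι ℝ) 1).compl₁₂ L LinearMap.id) U
      (fun i => 1 / m i) P
    have e2 : ∀ X Y, ((trB (1 : Matrix ι ι ℝ) 1).compl₁₂ L LinearMap.id) X Y =
        (DK (fun s => b s ^ 2) (fun s => 2 * b s * b1 s) U (fun i => F (m i))
          (DK F F1 U m X) * Y).trace := by
      intro X Y
      rw [LinearMap.compl₁₂_apply, trB_apply, Matrix.one_mul, Matrix.mul_one]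
      rfl
    simp only [e2] at e1
    rw [← hinv] at e1
    rw [e1]
    refine Finset.sum_congr rfl fun k _ => ?_
    rw [trace_frame hU, Finset.mul_sum]
    refine Finset.sum_congr rfl fun i _ => ?_
    rw [Finset.mul_sum]
    refine Finset.sum_congr rfl fun j _ => ?_
    rw [DK_frame hU, DK_frame hU, dd_sq]
    change 1 / m k * ((b (F (m i)) + b (F (m j))) * dd b b1 (F (m i)) (F (m j)) *
      (ze (m i) (m j) * Φ k i j) * Φ k j i) = _
    rw [← hΦ2 k i j]
    ring
  have t3 : ∑ k, fr (DK b b1 U (fun i => F (m i)) (DK F F1 U m (P k))) =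
      ∑ k, ∑ i, ∑ j, Φ k i j ^ 2 * (dd b b1 (F (m i)) (F (m j)) * ze (m i) (m j)) ^ 2 := by
    rw [← hrot]
    simp only [fr_DK hU, hD, mul_pow, mul_assoc]
  rw [t0, t1, t2, t3]
  simp only [← Finset.sum_add_distrib, ← mul_add]
  refine sym_le hΦ1 hΦ2 fun i j k => ?_
  have h := energy_six (hm i) (hm j) (hm k)
  rw [rho_comm (F (m k)) (F (m i)), rho_comm (F (m k)) (F (m j)), rho_comm (F (m j)) (F (m i)),
    ze_comm (m k) (m i), ze_comm (m k) (m j), ze_comm (m j) (m i),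
    dd_comm b b1 (F (m k)) (F (m i)), dd_comm b b1 (F (m k)) (F (m j)),
    dd_comm b b1 (F (m j)) (F (m i)), mul_comm (m k) (m i), mul_comm (m k) (m j),
    mul_comm (m j) (m i), add_comm (b (F (m k))) (b (F (m i))),
    add_comm (b (F (m k))) (b (F (m j))), add_comm (b (F (m j))) (b (F (m i)))]
  linarith

end Vale.Agent.P254Z.Row
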