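import Vale.Agent.P254.SP.H620.DK

/-!
# P254: Schur operators in the eigenframe of a symmetric matrix, rows, Bessel inequality
-/

open Matrix Finset

set_option linter.unusedSectionVars false

namespace Vale.Agent.P254Z.Row

open Vale.Agent.P254.S130 Vale.Agent.P254.SP620

variable {ι : Type*} [Fintype ι] [DecidableEq ι]

/-- the Schur operator with kernel `N` in the frame `U` with eigenvalues `s` -/
noncomputable def Sch (N : ℝ → ℝ → ℝ) (U : Matrix ι ι ℝ) (s : ι → ℝ) (X : Matrix ι ι ℝ) :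
    Matrix ι ι ℝ :=
  U * (of fun i j => N (s i) (s j) * (Uᵀ * X * U) i j) * Uᵀ

theorem DK_eq (f f' : ℝ → ℝ) (U : Matrix ι ι ℝ) (s : ι → ℝ) (X : Matrix ι ι ℝ) :
    DK f f' U s X = Sch (dd f f') U s X := rfl

variable {U : Matrix ι ι ℝ} {s : ι → ℝ}

theorem unframe (hU : Uᵀ * U = 1) (Y : Matrix ι ι ℝ) : Uᵀ * (U * Y * Uᵀ) * U = Y := by
  calc Uᵀ * (U * Y * Uᵀ) * U = (Uᵀ * U) * Y * (Uᵀ * U) := by simp only [Matrix.mul_assoc]
    _ = _ := by rw [hU, Matrix.one_mul, Matrix.mul_one]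

theorem reframe (hU : Uᵀ * U = 1) (Y : Matrix ι ι ℝ) : U * (Uᵀ * Y * U) * Uᵀ = Y := by
  have hU' : U * Uᵀ = 1 := mul_eq_one_comm.1 hU
  calc U * (Uᵀ * Y * U) * Uᵀ = (U * Uᵀ) * Y * (U * Uᵀ) := by simp only [Matrix.mul_assoc]
    _ = _ := by rw [hU', Matrix.one_mul, Matrix.mul_one]

theorem frame_ext (hU : Uᵀ * U = 1) {X Y : Matrix ι ι ℝ}
    (h : ∀ i j, (Uᵀ * X * U) i j = (Uᵀ * Y * U) i j) : X = Y := by
  rw [← reframe hU X, ← reframe hU Y, Matrix.ext h]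

theorem Sch_frame (hU : Uᵀ * U = 1) (N : ℝ → ℝ → ℝ) (X : Matrix ι ι ℝ) (i j : ι) :
    (Uᵀ * Sch N U s X * U) i j = N (s i) (s j) * (Uᵀ * X * U) i j := by
  rw [Sch, unframe hU, of_apply]

theorem frame_add (X Y : Matrix ι ι ℝ) (i j : ι) :
    (Uᵀ * (X + Y) * U) i j = (Uᵀ * X * U) i j + (Uᵀ * Y * U) i j := by
  rw [Matrix.mul_add, Matrix.add_mul, Matrix.add_apply]

theorem frame_sub (X Y : Matrix ι ι ℝ) (i j : ι) :
    (Uᵀ * (X - Y) * U) i j = (Uᵀ * X * U) i j - (Uᵀ * Y * U) i j := by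
  rw [Matrix.mul_sub, Matrix.sub_mul, Matrix.sub_apply]

theorem frame_smul (c : ℝ) (X : Matrix ι ι ℝ) (i j : ι) :
    (Uᵀ * (c • X) * U) i j = c * (Uᵀ * X * U) i j := by
  rw [Matrix.mul_smul, Matrix.smul_mul, Matrix.smul_apply, smul_eq_mul]

theorem frame_left (hU : Uᵀ * U = 1) (f : ℝ → ℝ) (X : Matrix ι ι ℝ) (i j : ι) :
    (Uᵀ * (fm f U s * X) * U) i j = f (s i) * (Uᵀ * X * U) i j := by
  have : Uᵀ * (fm f U s * X) * U = diagonal (fun i => f (s i)) * (Uᵀ * X * U) := by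
    rw [fm]
    calc Uᵀ * (U * diagonal (fun i => f (s i)) * Uᵀ * X) * U =
          (Uᵀ * U) * diagonal (fun i => f (s i)) * (Uᵀ * X * U) := by simp only [Matrix.mul_assoc]
      _ = _ := by rw [hU, Matrix.one_mul]
  rw [this, diagonal_mul]

theorem frame_right (hU : Uᵀ * U = 1) (f : ℝ → ℝ) (X : Matrix ι ι ℝ) (i j : ι) :
    (Uᵀ * (X * fm f U s) * U) i j = f (s j) * (Uᵀ * X * U) i j := by
  have : Uᵀ * (X * fm f U s) * U = (Uᵀ * X * U) * diagonal (fun i => f (s i)) := by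
    rw [fm]
    calc Uᵀ * (X * (U * diagonal (fun i => f (s i)) * Uᵀ)) * U =
          (Uᵀ * X * U) * diagonal (fun i => f (s i)) * (Uᵀ * U) := by simp only [Matrix.mul_assoc]
      _ = _ := by rw [hU, Matrix.mul_one]
  rw [this, mul_diagonal, mul_comm]

theorem frame_symm {X : Matrix ι ι ℝ} (hX : Xᵀ = X) (i j : ι) :
    (Uᵀ * X * U) j i = (Uᵀ * X * U) i j := by
  have : (Uᵀ * X * U)ᵀ = Uᵀ * X * U := by
    rw [transpose_mul, transpose_mul, transpose_transpose, hX, Matrix.mul_assoc]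
  exact congrFun (congrFun this i) j

theorem Sch_symm (hU : Uᵀ * U = 1) {N : ℝ → ℝ → ℝ} (hN : ∀ x y, N x y = N y x)
    {X : Matrix ι ι ℝ} (hX : Xᵀ = X) : (Sch N U s X)ᵀ = Sch N U s X := by
  refine frame_ext hU fun i j => ?_
  have : Uᵀ * (Sch N U s X)ᵀ * U = (Uᵀ * Sch N U s X * U)ᵀ := by
    rw [transpose_mul, transpose_mul, transpose_transpose, Matrix.mul_assoc]
  rw [this, transpose_apply, Sch_frame hU, Sch_frame hU, hN, frame_symm hX]

theorem DK_symm' (hU : Uᵀ * U = 1) (f f' : ℝ → ℝ) {X : Matrix ι ι ℝ} (hX : Xᵀ = X) :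
    (DK f f' U s X)ᵀ = DK f f' U s X := Sch_symm hU (dd_comm f f') hX

/-- left split: `N = l(left) + N'` -/
theorem Sch_left (hU : Uᵀ * U = 1) (N : ℝ → ℝ → ℝ) (l : ℝ → ℝ) (X : Matrix ι ι ℝ) :
    Sch N U s X = fm l U s * X + Sch (fun x y => N x y - l x) U s X := by
  refine frame_ext hU fun i j => ?_
  rw [frame_add, frame_left hU, Sch_frame hU, Sch_frame hU]
  ring

/-- two-sided split: `N = l(left) + r(right) + N'` -/
theorem Sch_left_right (hU : Uᵀ * U = 1) (N : ℝ → ℝ → ℝ) (l r : ℝ → ℝ) (X : Matrix ι ι ℝ) :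
    Sch N U s X = fm l U s * X + X * fm r U s + Sch (fun x y => N x y - l x - r y) U s X := by
  refine frame_ext hU fun i j => ?_
  rw [frame_add, frame_add, frame_left hU, frame_right hU, Sch_frame hU, Sch_frame hU]
  ring

/-- the Schur operator as a linear map -/
noncomputable def SchL (N : ℝ → ℝ → ℝ) (U : Matrix ι ι ℝ) (s : ι → ℝ) :
    Matrix ι ι ℝ →ₗ[ℝ] Matrix ι ι ℝ where
  toFun := Sch N U s
  map_add' X Y := by
    unfold Sch
    rw [← Matrix.add_mul, ← Matrix.mul_add]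
    congr 2
    ext i j
    simp only [of_apply, Matrix.add_apply, frame_add]
    ring
  map_smul' c X := by
    unfold Sch
    rw [RingHom.id_apply, ← Matrix.smul_mul, ← Matrix.mul_smul]
    congr 2
    ext i j
    simp only [of_apply, Matrix.smul_apply, frame_smul, smul_eq_mul]
    ring

theorem trace_frame (hU : Uᵀ * U = 1) (X Y : Matrix ι ι ℝ) :
    (X * Y).trace = ∑ i, ∑ j, (Uᵀ * X * U) i j * (Uᵀ * Y * U) j i := by
  have hU' : U * Uᵀ = 1 := mul_eq_one_comm.1 hU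
  have : ((Uᵀ * X * U) * (Uᵀ * Y * U)).trace = (X * Y).trace := by
    calc ((Uᵀ * X * U) * (Uᵀ * Y * U)).trace = (Uᵀ * (X * (U * Uᵀ) * Y * U)).trace := by
          simp only [Matrix.mul_assoc]
      _ = (X * (U * Uᵀ) * Y * U * Uᵀ).trace := trace_mul_comm _ _
      _ = _ := by rw [Matrix.mul_assoc _ U, hU', Matrix.mul_one, Matrix.mul_one]
  rw [← this, trace]
  rfl

theorem fr_frame (hU : Uᵀ * U = 1) (X : Matrix ι ι ℝ) :
    fr X = ∑ i, ∑ j, (Uᵀ * X * U) i j ^ 2 := by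
  rw [← fr_orth hU hU X, fr]

/-! ### vectors -/

theorem dot_frame (hU : Uᵀ * U = 1) (v w : ι → ℝ) :
    v ⬝ᵥ w = ∑ i, (Uᵀ *ᵥ v) i * (Uᵀ *ᵥ w) i := by
  have hU' : U * Uᵀ = 1 := mul_eq_one_comm.1 hU
  change _ = (Uᵀ *ᵥ v) ⬝ᵥ (Uᵀ *ᵥ w)
  rw [dotProduct_mulVec, mulVec_transpose, vecMul_vecMul, hU', vecMul_one]

theorem frame_fm (hU : Uᵀ * U = 1) (f : ℝ → ℝ) (w : ι → ℝ) (i : ι) :
    (Uᵀ *ᵥ (fm f U s *ᵥ w)) i = f (s i) * (Uᵀ *ᵥ w) i := by
  rw [fm, mulVec_mulVec, ← Matrix.mul_assoc, ← Matrix.mul_assoc, hU, Matrix.one_mul,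
    ← mulVec_mulVec, mulVec_diagonal]

theorem dot_fm (hU : Uᵀ * U = 1) (f : ℝ → ℝ) (v w : ι → ℝ) :
    v ⬝ᵥ (fm f U s *ᵥ w) = ∑ i, f (s i) * ((Uᵀ *ᵥ v) i * (Uᵀ *ᵥ w) i) := by
  rw [dot_frame hU]
  refine Finset.sum_congr rfl fun i _ => ?_
  rw [frame_fm hU]
  ring

/-- the column `u` of `W` -/
def col (W : Matrix ι ι ℝ) (u : ι) : ι → ℝ := fun a => W a u

theorem mulVec_col (X W : Matrix ι ι ℝ) (u i : ι) : (X *ᵥ col W u) i = (X * W) i u := rfl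

theorem col_dot {W : Matrix ι ι ℝ} (hW : Wᵀ * W = 1) (u u' : ι) :
    col W u ⬝ᵥ col W u' = if u = u' then 1 else 0 := by
  have := congrFun (congrFun hW u) u'
  rw [one_apply] at this
  exact this

/-- summation over the rows `u` of a product of two components in the frame `U` -/
theorem sum_rows (hU : Uᵀ * U = 1) {W : Matrix ι ι ℝ} (hW : Wᵀ * W = 1) (X Y : Matrix ι ι ℝ)
    (i : ι) : ∑ u, (Uᵀ *ᵥ (X *ᵥ col W u)) i * (Uᵀ *ᵥ (Y *ᵥ col W u)) i =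
      ∑ j, (Uᵀ * X * U) i j * (Uᵀ * Y * U) i j := by
  have hW' : W * Wᵀ = 1 := mul_eq_one_comm.1 hW
  have hU' : U * Uᵀ = 1 := mul_eq_one_comm.1 hU
  have key : ∀ {O : Matrix ι ι ℝ}, O * Oᵀ = 1 →
      ∑ u, (Uᵀ * X * O) i u * (Uᵀ * Y * O) i u = (Uᵀ * X * (Uᵀ * Y)ᵀ) i i := by
    intro O hO
    have : Uᵀ * X * (Uᵀ * Y)ᵀ = (Uᵀ * X * O) * (Uᵀ * Y * O)ᵀ := by
      rw [transpose_mul (Uᵀ * Y) O, Matrix.mul_assoc (Uᵀ * X) O, ← Matrix.mul_assoc O, hO,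
        Matrix.one_mul]
    rw [this, mul_apply]
    rfl
  rw [key hU', ← key hW']
  refine Finset.sum_congr rfl fun u _ => ?_
  rw [mulVec_mulVec, mulVec_mulVec, mulVec_col, mulVec_col]

theorem sum_rows_dot {W : Matrix ι ι ℝ} (hW : Wᵀ * W = 1) (X Y : Matrix ι ι ℝ) :
    ∑ u, (X *ᵥ col W u) ⬝ᵥ (Y *ᵥ col W u) = (Xᵀ * Y).trace := by
  rw [trace_frame hW]
  have h1 : ∀ u, (X *ᵥ col W u) ⬝ᵥ (Y *ᵥ col W u) = (Wᵀ * (Xᵀ * Y) * W) u u := by
    intro u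
    have : Wᵀ * (Xᵀ * Y) * W = (X * W)ᵀ * (Y * W) := by
      rw [transpose_mul]
      simp only [Matrix.mul_assoc]
    rw [this, mul_apply]
    rfl
  simp only [h1]
  rw [← trace_frame hW]
  have h2 := trace_frame hW (Xᵀ * Y) 1
  rw [Matrix.mul_one, Matrix.mul_one, hW] at h2
  rw [h2]
  refine Finset.sum_congr rfl fun u _ => ?_
  simp [one_apply]

/-! ### Bessel inequality -/

theorem bessel_abs {κ σ : Type*} [Fintype κ] [Fintype σ] [DecidableEq σ] (r : κ → ℝ)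
    (t : σ → κ → ℝ) (g : σ → ℝ) (ht : ∀ u u', t u ⬝ᵥ t u' = if u = u' then g u else 0) :
    ∑ u, (r ⬝ᵥ t u) ^ 2 / g u ≤ r ⬝ᵥ r := by
  set c : σ → ℝ := fun u => r ⬝ᵥ t u / g u with hc
  set p : κ → ℝ := ∑ u, c u • t u with hp
  have h0 : 0 ≤ (r - p) ⬝ᵥ (r - p) := Finset.sum_nonneg fun _ _ => mul_self_nonneg _
  have h1 : r ⬝ᵥ p = ∑ u, (r ⬝ᵥ t u) ^ 2 / g u := by
    rw [hp, dotProduct_sum]
    refine Finset.sum_congr rfl fun u _ => ?_
    rw [dotProduct_smul, smul_eq_mul, hc]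
    ring
  have h2 : p ⬝ᵥ p = ∑ u, (r ⬝ᵥ t u) ^ 2 / g u := by
    conv_lhs => rw [hp, sum_dotProduct]
    refine Finset.sum_congr rfl fun u _ => ?_
    rw [dotProduct_sum, Finset.sum_eq_single u]
    · rw [smul_dotProduct, dotProduct_smul, ht, if_pos rfl, smul_eq_mul, smul_eq_mul, hc]
      by_cases hg : g u = 0
      · simp [hg]
      · field_simp
    · intro u' _ hu
      rw [smul_dotProduct, dotProduct_smul, ht, if_neg hu.symm]
      simp
    · simp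
  rw [sub_dotProduct, dotProduct_sub, dotProduct_sub, dotProduct_comm p r, h1, h2] at h0
  linarith

variable {A : ι → Matrix ι ι ℝ} {W : Matrix ι ι ℝ} {g : ι → ℝ}

theorem gam_dot (hA : ∀ k, (A k)ᵀ = A k) (hG : Dec (∑ k, A k * A k) W g) (u u' : ι) :
    ∑ k, (A k *ᵥ col W u) ⬝ᵥ (A k *ᵥ col W u') = if u = u' then g u else 0 := by
  have h1 : ∀ k, (A k *ᵥ col W u) ⬝ᵥ (A k *ᵥ col W u') = (Wᵀ * (A k * A k) * W) u u' := by
    intro k
    have : Wᵀ * (A k * A k) * W = (A k * W)ᵀ * (A k * W) := by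
      rw [transpose_mul, hA]
      simp only [Matrix.mul_assoc]
    rw [this, mul_apply]
    rfl
  simp only [h1]
  rw [← Matrix.sum_apply, ← Matrix.sum_mul, ← Matrix.mul_sum, hG.eq, unframe hG.orth,
    diagonal_apply]

theorem gam_nonneg (hA : ∀ k, (A k)ᵀ = A k) (hG : Dec (∑ k, A k * A k) W g) (u : ι) :
    0 ≤ g u := by
  have := gam_dot hA hG u u
  rw [if_pos rfl] at this
  rw [← this]
  exact Finset.sum_nonneg fun k _ => Finset.sum_nonneg fun _ _ => mul_self_nonneg _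

theorem gam_zero (hA : ∀ k, (A k)ᵀ = A k) (hG : Dec (∑ k, A k * A k) W g) {u : ι}
    (h : g u = 0) (k : ι) : A k *ᵥ col W u = 0 := by
  have h1 := gam_dot hA hG u u
  rw [if_pos rfl, h] at h1
  exact dotProduct_self_eq_zero.1 ((Finset.sum_eq_zero_iff_of_nonneg
    fun k _ => Finset.sum_nonneg fun _ _ => mul_self_nonneg _).1 h1 k (Finset.mem_univ k))

theorem gam_col (hG : Dec (∑ k, A k * A k) W g) (u : ι) :
    ∑ k, A k *ᵥ (A k *ᵥ col W u) = g u • col W u := by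
  simp only [mulVec_mulVec]
  rw [← Matrix.sum_mulVec, hG.eq]
  funext i
  rw [mulVec_col, Matrix.mul_assoc, hG.orth, Matrix.mul_one, mul_diagonal, Pi.smul_apply,
    smul_eq_mul, mul_comm]
  rfl

/-- **Bessel budget**, for every component in the frame `U`. -/
theorem bessel (hU : Uᵀ * U = 1) (hA : ∀ k, (A k)ᵀ = A k) (hG : Dec (∑ k, A k * A k) W g)
    (T : ι → Matrix ι ι ℝ) (i : ι) :
    ∑ u, (Uᵀ *ᵥ ∑ k, T k *ᵥ (A k *ᵥ col W u)) i ^ 2 / g u ≤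
      ∑ k, ∑ j, (Uᵀ * T k * U) i j ^ 2 := by
  have hU' : U * Uᵀ = 1 := mul_eq_one_comm.1 hU
  have h := bessel_abs (κ := ι × ι) (fun p => (Uᵀ * T p.1) i p.2)
    (fun u p => (A p.1 *ᵥ col W u) p.2) g fun u u' => by
      rw [← gam_dot hA hG, dotProduct, Fintype.sum_prod_type]
      rfl
  refine le_of_eq_of_le ?_ (h.trans (le_of_eq ?_))
  · refine Finset.sum_congr rfl fun u _ => ?_
    congr 2
    rw [mulVec_sum, Finset.sum_apply, dotProduct, Fintype.sum_prod_type]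
    refine Finset.sum_congr rfl fun k _ => ?_
    rw [mulVec_mulVec]
    rfl
  · rw [dotProduct, Fintype.sum_prod_type]
    refine Finset.sum_congr rfl fun k _ => ?_
    rw [← sum_sq_orth hU' (fun a => (Uᵀ * T k) i a) |>.trans
      (Finset.sum_congr rfl fun a _ => sq _)]
    refine Finset.sum_congr rfl fun j _ => ?_
    rw [mul_apply]
    congr 1
    exact Finset.sum_congr rfl fun a _ => mul_comm _ _

end Vale.Agent.P254Z.Row
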